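import Mathlib

/-!
# P123: the numerical range of `V* + γ V` reaches the curve `conj z + γ z`, `|z| = 1`

`V` is an isometry of a complex Hilbert space (`V* V = 1`) and `e` a unit vector with `V* e = 0`.
The vectors `V^k e` are orthonormal; the unit vectors proportional to `∑_{k ≤ n} w^k V^k e`
(`|w| = 1`) have `⟪x, (V* + γ V) x⟫ = (n / (n + 1)) (w + γ conj w)`.  Hence a polynomial bounded
by `M` on the numerical range is bounded by `M` on the curve.
-/

namespace Vale.Agent.Lib.P123.H96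

open ContinuousLinearMap Finset Filter Topology
open scoped ComplexConjugate

variable {H : Type*} [NormedAddCommGroup H] [InnerProductSpace ℂ H] [CompleteSpace H]

theorem inner_map_map (V : H →L[ℂ] H) (hV : adjoint V * V = 1) (a b : H) :
    inner ℂ (V a) (V b) = inner ℂ a b := by
  rw [← adjoint_inner_right, ← mul_apply_eq_comp, hV, one_apply_eq_self]

theorem orthonormal_pow (V : H →L[ℂ] H) (hV : adjoint V * V = 1) (e : H) (he : ‖e‖ = 1)
    (hVe : adjoint V e = 0) : Orthonormal ℂ (fun k : ℕ => (V ^ k) e) := by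
  have h0 : ∀ k : ℕ, inner ℂ e ((V ^ (k + 1)) e) = 0 := by
    intro k
    rw [pow_succ', mul_apply_eq_comp, ← adjoint_inner_left, hVe, inner_zero_left]
  have hstep : ∀ j k : ℕ,
      inner ℂ ((V ^ (j + 1)) e) ((V ^ (k + 1)) e) = inner ℂ ((V ^ j) e) ((V ^ k) e) := by
    intro j k
    rw [pow_succ', pow_succ', mul_apply_eq_comp, mul_apply_eq_comp,
      inner_map_map V hV]
  have hshift : ∀ j k : ℕ, inner ℂ ((V ^ j) e) ((V ^ (j + k)) e) = inner ℂ e ((V ^ k) e) := by
    intro j k
    induction j with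
    | zero => simp
    | succ j ih => rw [show j + 1 + k = (j + k) + 1 by ring, hstep, ih]
  have hee : inner ℂ e e = 1 := by
    rw [inner_self_eq_norm_sq_to_K, he]
    simp
  have hlt : ∀ i j : ℕ, i < j → inner ℂ ((V ^ i) e) ((V ^ j) e) = 0 := by
    intro i j hij
    obtain ⟨k, rfl⟩ := Nat.exists_eq_add_of_lt hij
    rw [show i + k + 1 = i + (k + 1) by ring, hshift, h0]
  rw [orthonormal_iff_ite]
  intro i j
  split_ifs with h
  · subst h
    have := hshift i 0
    simp only [add_zero, pow_zero, one_apply_eq_self] at this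
    rw [this, hee]
  · rcases lt_or_gt_of_ne h with h1 | h1
    · exact hlt i j h1
    · rw [← inner_conj_symm, hlt j i h1, map_zero]

theorem exists_unit_inner (V : H →L[ℂ] H) (hV : adjoint V * V = 1) (e : H) (he : ‖e‖ = 1)
    (hVe : adjoint V e = 0) (γ w : ℂ) (hw : ‖w‖ = 1) (n : ℕ) :
    ∃ x : H, ‖x‖ = 1 ∧
      inner ℂ x ((adjoint V + γ • V) x) = ((n : ℂ) / (n + 1)) * (w + γ * conj w) := by
  classical
  have hu := orthonormal_pow V hV e he hVe
  set u : ℕ → H := fun k => (V ^ k) e with hu_def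
  have hww : conj w * w = 1 := by
    rw [mul_comm, Complex.mul_conj, Complex.normSq_eq_norm_sq, hw]
    simp
  have hpw : ∀ i : ℕ, conj (w ^ i) * w ^ i = 1 := by
    intro i
    rw [map_pow, ← mul_pow, hww, one_pow]
  set l₁ : ℕ → ℂ := fun i => if i ≤ n then w ^ i else 0 with hl₁
  set l₂ : ℕ → ℂ := fun i => if i = 0 then 0 else w ^ (i - 1) with hl₂
  set y : H := ∑ i ∈ range (n + 2), l₁ i • u i with hy
  have hVu : ∀ i, V (u i) = u (i + 1) := by
    intro i
    simp only [hu_def]
    rw [pow_succ', mul_apply_eq_comp]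
  have hVy : V y = ∑ i ∈ range (n + 2), l₂ i • u i := by
    rw [hy, map_sum]
    simp only [map_smul, hVu]
    rw [Finset.sum_range_succ, Finset.sum_range_succ' (fun i => l₂ i • u i)]
    have h1 : l₁ (n + 1) = 0 := by simp [hl₁]
    have h2 : l₂ 0 = 0 := by simp [hl₂]
    rw [h1, h2, zero_smul, zero_smul, add_zero, add_zero]
    refine Finset.sum_congr rfl fun i hi => ?_
    have hi' : i ≤ n := by
      have := Finset.mem_range.mp hi
      omega
    simp [hl₁, hl₂, hi']
  have hyy : inner ℂ y y = (n : ℂ) + 1 := by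
    rw [hy, hu.inner_sum, Finset.sum_range_succ]
    have h1 : l₁ (n + 1) = 0 := by simp [hl₁]
    rw [h1, mul_zero, add_zero]
    have : ∀ i ∈ range (n + 1), conj (l₁ i) * l₁ i = 1 := by
      intro i hi
      have hi' : i ≤ n := by
        have := Finset.mem_range.mp hi
        omega
      simp only [hl₁, hi', if_true]
      exact hpw i
    rw [Finset.sum_congr rfl this]
    simp
  have hyV : inner ℂ y (V y) = (n : ℂ) * conj w := by
    rw [hVy, hy, hu.inner_sum, Finset.sum_range_succ' (fun i => conj (l₁ i) * l₂ i)]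
    have h2 : l₂ 0 = 0 := by simp [hl₂]
    rw [h2, mul_zero, add_zero, Finset.sum_range_succ]
    have h1 : l₁ (n + 1) = 0 := by simp [hl₁]
    rw [h1, map_zero, zero_mul, add_zero]
    have : ∀ i ∈ range n, conj (l₁ (i + 1)) * l₂ (i + 1) = conj w := by
      intro i hi
      have hi' : i + 1 ≤ n := by
        have := Finset.mem_range.mp hi
        omega
      simp only [hl₁, hl₂, hi', if_true, Nat.add_sub_cancel, Nat.succ_ne_zero, if_false]
      rw [pow_succ, map_mul, mul_right_comm, hpw i, one_mul]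
    rw [Finset.sum_congr rfl this]
    simp
  have hyVs : inner ℂ y (adjoint V y) = (n : ℂ) * w := by
    rw [adjoint_inner_right, ← inner_conj_symm, hyV, map_mul, Complex.conj_conj, Complex.conj_natCast]
  have hyA : inner ℂ y ((adjoint V + γ • V) y) = (n : ℂ) * (w + γ * conj w) := by
    rw [_root_.add_apply, _root_.smul_apply, inner_add_right,
      inner_smul_right, hyVs, hyV]
    ring
  have hnorm : ‖y‖ ^ 2 = (n : ℝ) + 1 := by
    have h := inner_self_eq_norm_sq_to_K (𝕜 := ℂ) y
    rw [hyy] at h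
    have h' : ((n : ℝ) + 1 : ℝ) = ‖y‖ ^ 2 := by
      have : (((n : ℝ) + 1 : ℝ) : ℂ) = ((‖y‖ ^ 2 : ℝ) : ℂ) := by
        push_cast
        exact h
      exact_mod_cast this
    exact h'.symm
  have hy0 : y ≠ 0 := by
    intro h0
    rw [h0, norm_zero] at hnorm
    have : (0 : ℝ) ≤ n := Nat.cast_nonneg n
    nlinarith
  refine ⟨((‖y‖⁻¹ : ℝ) : ℂ) • y, ?_, ?_⟩
  · have := norm_smul_inv_norm (𝕜 := ℂ) hy0
    simpa using this
  · rw [map_smul, inner_smul_left, inner_smul_right, hyA, Complex.conj_ofReal, ← mul_assoc,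
      ← mul_assoc, ← Complex.ofReal_mul]
    have hinv : ‖y‖⁻¹ * ‖y‖⁻¹ = ((n : ℝ) + 1)⁻¹ := by
      rw [← mul_inv, ← pow_two, hnorm]
    rw [hinv]
    push_cast
    field_simp

/-- A polynomial bounded by `M` on the numerical range of `V* + γ V` is bounded by `M` on the
curve `conj z + γ z`, `|z| = 1`. -/
theorem curve_bound (V : H →L[ℂ] H) (hV : adjoint V * V = 1) (e : H) (he : ‖e‖ = 1)
    (hVe : adjoint V e = 0) (γ : ℂ) (p : Polynomial ℂ) (M : ℝ)
    (hM : ∀ x : H, ‖x‖ = 1 → ‖p.eval (inner ℂ x ((adjoint V + γ • V) x))‖ ≤ M)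
    (z : ℂ) (hz : ‖z‖ = 1) : ‖p.eval (conj z + γ * z)‖ ≤ M := by
  have hw : ‖conj z‖ = 1 := by
    rw [RCLike.norm_conj, hz]
  have hb : ∀ n : ℕ, ‖p.eval (((n : ℂ) / (n + 1)) * (conj z + γ * z))‖ ≤ M := by
    intro n
    obtain ⟨x, hx1, hx⟩ := exists_unit_inner V hV e he hVe γ (conj z) hw n
    have := hM x hx1
    rw [hx, Complex.conj_conj] at this
    exact this
  have hlim : Tendsto (fun n : ℕ => ((n : ℂ) / (n + 1)) * (conj z + γ * z)) atTop
      (𝓝 (conj z + γ * z)) := by
    have h1 := tendsto_natCast_div_add_atTop (𝕜 := ℂ) 1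
    have h2 := h1.mul_const (conj z + γ * z)
    simpa using h2
  have hcont : Tendsto (fun n : ℕ => ‖p.eval (((n : ℂ) / (n + 1)) * (conj z + γ * z))‖) atTop
      (𝓝 ‖p.eval (conj z + γ * z)‖) :=
    ((p.continuous.tendsto _).comp hlim).norm
  exact le_of_tendsto' hcont hb

end Vale.Agent.Lib.P123.H96
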